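import Vale.Agent.P281.R2.H391.Hyp
import Vale.Agent.P285.R2.H80.R4.Snc

/-!
# P281, R2, row B1: the line bundle of a boundary
-/

open scoped Manifold ContDiff Topology
open Filter Set MeasureTheory

set_option linter.all false

noncomputable section

namespace Vale.Agent.P281.R2.H391

open Vale.Agent.P272.K Vale.Agent.P285.H281.FD Vale.Agent.P285.LK
open Vale.Agent.P281.R2.H73 (DivB)

section
variable {n : ℕ} {X : Type} [TopologicalSpace X] [ChartedSpace (Cm n) X]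
  [IsManifold 𝓘(ℂ, Cm n) ω X]

/-- the equations of the divisors in `T` at `x` -/
structure EqSys (n : ℕ) [ChartedSpace (Cm n) X] (T : Finset (Set X)) (g : Set X → X → ℂ)
    (V : Set X) : Prop where
  isOpen : IsOpen V
  eqn : ∀ D ∈ T, ∀ z ∈ V, FS.Eqn (Cm n) D (g D) z

lemma exists_eqSys {T : Finset (Set X)} (hT : ∀ D ∈ T, ∀ x, ∃ g, FS.Eqn (Cm n) D g x) (x : X) :
    ∃ (g : Set X → X → ℂ) (V : Set X), x ∈ V ∧ EqSys n T g V := by
  classical
  have h : ∀ D : Set X, ∃ (g : X → ℂ) (V : Set X), x ∈ V ∧ IsOpen V ∧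
      (D ∈ T → ∀ z ∈ V, FS.Eqn (Cm n) D g z) := by
    intro D
    by_cases hD : D ∈ T
    · obtain ⟨g, W, hW, hx, h1, h2, h3⟩ := hT D hD x
      exact ⟨g, W, hx, hW, fun _ z hz => ⟨W, hW, hz, h1, h2, h3⟩⟩
    · exact ⟨fun _ => 0, univ, mem_univ x, isOpen_univ, fun h => absurd h hD⟩
  choose g V hx hV hg using h
  refine ⟨g, ⋂ D ∈ T, V D, mem_iInter₂.2 fun D _ => hx D, isOpen_biInter_finset fun D _ => hV D,
    fun D hD z hz => hg D hD z (mem_iInter₂.1 hz D hD)⟩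

/-- the quotient of two systems of equations is a unit -/
lemma exists_unit {T : Finset (Set X)} (kk : Set X → ℕ) {g g' : Set X → X → ℂ} {x : X}
    (hg : ∀ D ∈ T, FS.Eqn (Cm n) D (g D) x) (hg' : ∀ D ∈ T, FS.Eqn (Cm n) D (g' D) x) :
    ∃ u : X → ℂ, FS.HolAt (Cm n) u x ∧ u x ≠ 0 ∧
      ∀ᶠ z in 𝓝 x, FS.mon T g kk z = u z * FS.mon T g' kk z := by
  classical
  have h : ∀ D : Set X, ∃ v : X → ℂ, FS.HolAt (Cm n) v x ∧ v x ≠ 0 ∧
      (D ∈ T → ∀ᶠ z in 𝓝 x, g D z = g' D z * v z) := by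
    intro D
    by_cases hD : D ∈ T
    · obtain ⟨v, hv, hv0, hv'⟩ := MF.leq_unit (E := Cm n) (hg' D hD) (hg D hD)
      exact ⟨v, hv, hv0, fun _ => hv'⟩
    · exact ⟨fun _ => 1, contMDiffAt_const, one_ne_zero, fun h => absurd h hD⟩
  choose v hv hv0 hve using h
  refine ⟨fun z => ∏ D ∈ T, v D z ^ kk D, ?_, ?_, ?_⟩
  · exact HolV.prod fun D _ => (hv D).pow _
  · exact Finset.prod_ne_zero_iff.2 fun D _ => pow_ne_zero _ (hv0 D)
  · have hall : ∀ᶠ z in 𝓝 x, ∀ D ∈ T, g D z = g' D z * v D z := by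
      rw [Finset.eventually_all]
      exact fun D hD => hve D hD
    filter_upwards [hall] with z hz
    unfold FS.mon
    rw [← Finset.prod_mul_distrib]
    refine Finset.prod_congr rfl fun D hD => ?_
    rw [hz D hD]
    ring

/-- points outside the divisors -/
lemma exists_out {T : Finset (Set X)} (hcl : ∀ D ∈ T, IsClosed D)
    (hT : ∀ D ∈ T, ∀ x, ∃ g, FS.Eqn (Cm n) D g x) {U : Set X} (hU : IsOpen U)
    (hne : U.Nonempty) : ∃ x ∈ U, ∀ D ∈ T, x ∉ D := by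
  classical
  induction T using Finset.induction_on generalizing U with
  | empty => exact ⟨hne.choose, hne.choose_spec, fun D hD => absurd hD (Finset.notMem_empty D)⟩
  | insert D T hD ih =>
    obtain ⟨y, hyU, hyD⟩ := IsLocalEq.exists_notMem (E := Cm n)
      (hT D (Finset.mem_insert_self D T)) hU hne
    obtain ⟨x, ⟨hxU, hxD⟩, hx⟩ := ih (fun D' h => hcl D' (Finset.mem_insert_of_mem h))
      (fun D' h => hT D' (Finset.mem_insert_of_mem h))
      (hU.inter (hcl D (Finset.mem_insert_self D T)).isOpen_compl) ⟨y, hyU, hyD⟩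
    refine ⟨x, hxU, fun D' hD' => ?_⟩
    rcases Finset.mem_insert.1 hD' with rfl | h
    · exact hxD
    · exact hx D' h

/-- uniqueness of the quotient -/
lemma unit_unique {T : Finset (Set X)} (hcl : ∀ D ∈ T, IsClosed D)
    (hT : ∀ D ∈ T, ∀ x, ∃ g, FS.Eqn (Cm n) D g x) {kk : Set X → ℕ} {g : Set X → X → ℂ} {x : X}
    (hg : ∀ D ∈ T, FS.Eqn (Cm n) D (g D) x) {u v : X → ℂ} (hu : FS.HolAt (Cm n) u x)
    (hv : FS.HolAt (Cm n) v x)
    (h : ∀ᶠ z in 𝓝 x, u z * FS.mon T g kk z = v z * FS.mon T g kk z) : u x = v x := by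
  classical
  by_contra hne
  have hc1 : ContinuousAt u x := ContMDiffAt.continuousAt hu
  have hc2 : ContinuousAt v x := ContMDiffAt.continuousAt hv
  have h5 := (hc1.ne_iff_eventually_ne hc2).1 hne
  have h6 : ∀ᶠ z in 𝓝 x, ∀ D ∈ T, FS.Eqn (Cm n) D (g D) z := by
    rw [Finset.eventually_all]
    exact fun D hD => IsLocalEq.eventually (hg D hD)
  obtain ⟨V, hV, hVo, hxV⟩ := _root_.eventually_nhds_iff.1 ((h5.and h).and h6)
  obtain ⟨y, hyV, hy⟩ := exists_out hcl hT hVo ⟨x, hxV⟩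
  obtain ⟨⟨h7, h8⟩, h9⟩ := hV y hyV
  refine h7 (mul_right_cancel₀ ?_ h8)
  refine Finset.prod_ne_zero_iff.2 fun D hD => pow_ne_zero _ fun h0 => hy D hD ?_
  exact (IsLocalEq.mem_iff (h9 D hD)).2 h0

/-- **B1**: the line bundle of `∑ kk(D) D` -/
theorem exists_divB [Nonempty X] {T : Finset (Set X)} {kk : Set X → ℕ} (hkT : ∀ D, kk D ≠ 0 → D ∈ T)
    (hcl : ∀ D ∈ T, IsClosed D) (hT : ∀ D ∈ T, ∀ x, ∃ g, FS.Eqn (Cm n) D g x) :
    ∃ (L : Bd X) (t : L.ι → X → ℂ), DivB n kk L t ∧ ∀ i x, x ∈ L.U i →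
      ∃ g : Set X → X → ℂ, (∀ D ∈ T, FS.Eqn (Cm n) D (g D) x) ∧
        ∀ z, t i z = FS.mon T g kk z := by
  classical
  have h0 := fun x : X => exists_eqSys hT x
  choose g V hxV hS using h0
  have h1 : ∀ i j x, x ∈ V i → x ∈ V j → ∃ u : X → ℂ, FS.HolAt (Cm n) u x ∧ u x ≠ 0 ∧
      ∀ᶠ z in 𝓝 x, FS.mon T (g i) kk z = u z * FS.mon T (g j) kk z := fun i j x hi hj =>
    exists_unit kk (fun D hD => (hS i).eqn D hD x hi) fun D hD => (hS j).eqn D hD x hj
  set G : X → X → X → ℂ := fun i j x =>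
    if h : x ∈ V i ∧ x ∈ V j then (h1 i j x h.1 h.2).choose x else 1 with hG
  have hG' : ∀ i j x, x ∈ V i → x ∈ V j → ∀ u : X → ℂ, FS.HolAt (Cm n) u x →
      (∀ᶠ z in 𝓝 x, FS.mon T (g i) kk z = u z * FS.mon T (g j) kk z) → G i j x = u x := by
    intro i j x hi hj u hu hue
    have h2 : G i j x = (h1 i j x hi hj).choose x := by
      rw [hG]
      exact dif_pos ⟨hi, hj⟩
    rw [h2]
    obtain ⟨h3, h4, h5⟩ := (h1 i j x hi hj).choose_spec
    refine unit_unique hcl hT (kk := kk) (fun D hD => (hS j).eqn D hD x hj) h3 hu ?_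
    filter_upwards [h5, hue] with z hz hz'
    rw [← hz, ← hz']
  have hGe : ∀ i j x, x ∈ V i → x ∈ V j → ∃ u : X → ℂ, FS.HolAt (Cm n) u x ∧ u x ≠ 0 ∧
      (∀ᶠ z in 𝓝 x, FS.mon T (g i) kk z = u z * FS.mon T (g j) kk z) ∧ G i j =ᶠ[𝓝 x] u := by
    intro i j x hi hj
    obtain ⟨u, hu, hu0, hue⟩ := h1 i j x hi hj
    refine ⟨u, hu, hu0, hue, ?_⟩
    filter_upwards [(hS i).isOpen.mem_nhds hi, (hS j).isOpen.mem_nhds hj,
      eventually_eventually_nhds.2 hue, HolV.eventually hu] with z hzi hzj hz hzu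
    exact hG' i j z hzi hzj u hzu hz
  have hne : ∀ D ∈ T, ∀ i x, x ∈ V i → x ∉ D → g i D x ≠ 0 := fun D hD i x hi hx h0 =>
    hx ((IsLocalEq.mem_iff ((hS i).eqn D hD x hi)).2 h0)
  have hhol : ∀ i x, x ∈ V i → FS.HolAt (Cm n) (FS.mon T (g i) kk) x := fun i x hi =>
    HolV.prod fun D hD => (IsLocalEq.holAt ((hS i).eqn D hD x hi)).pow _
  refine ⟨⟨X, V, G⟩, fun i => FS.mon T (g i) kk, ⟨⟨fun i => (hS i).isOpen,
    fun x => ⟨x, hxV x⟩, ?_, ?_, ?_⟩, ⟨?_, ?_⟩, ?_, ?_⟩, ?_⟩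
  · -- holo
    intro i j e x he hi hj
    obtain ⟨u, hu, -, -, hGu⟩ := hGe i j x hi hj
    have h2 : FS.HolAt (Cm n) (G i j) x := ContMDiffAt.congr_of_eventuallyEq hu hGu
    exact (an_symm h2 he).contDiffAt
  · -- ne_zero
    intro i j x hi hj
    obtain ⟨u, hu, hu0, -, hGu⟩ := hGe i j x hi hj
    show G i j x ≠ 0
    rw [hGu.self_of_nhds]
    exact hu0
  · -- cocycle
    intro i j k x hi hj hk
    obtain ⟨u, hu, -, hue, hGu⟩ := hGe i j x hi hj
    obtain ⟨v, hv, -, hve, hGv⟩ := hGe j k x hj hk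
    show G i j x * G j k x = G i k x
    rw [hGu.self_of_nhds, hGv.self_of_nhds]
    refine (hG' i k x hi hk (fun z => u z * v z) (HolV.mul hu hv) ?_).symm
    filter_upwards [hue, hve] with z h2 h3
    rw [h2, h3]
    ring
  · -- sec holo
    intro i e x he hi
    exact (an_symm (hhol i x hi) he).contDiffAt
  · -- sec change
    intro i j x hi hj
    obtain ⟨u, hu, -, hue, hGu⟩ := hGe i j x hi hj
    show FS.mon T (g i) kk x = G i j x * FS.mon T (g j) kk x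
    rw [hGu.self_of_nhds]
    exact hue.self_of_nhds
  · -- ne
    obtain ⟨x, -, hx⟩ := exists_out hcl hT isOpen_univ univ_nonempty
    refine ⟨x, fun i hi => ?_⟩
    exact Finset.prod_ne_zero_iff.2 fun D hD => pow_ne_zero _ (hne D hD i x hi (hx D hD))
  · -- loc
    intro i x hi
    exact ⟨T, g i, fun _ => 1, hkT, fun D hD => (hS i).eqn D hD x hi, contMDiffAt_const,
      one_ne_zero, Eventually.of_forall fun z => (one_mul _).symm⟩
  · intro i x hi
    exact ⟨g i, fun D hD => (hS i).eqn D hD x hi, fun z => rfl⟩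

/-- the chain rule -/
lemma dif_chart {g : X → ℂ} {x : X} (hg : FS.HolAt (Cm n) g x) {e : Chart n X} (he : At e x)
    (ξ : Cm n) : FS.dif (Cm n) g x ξ =
      fderiv ℂ (fun z => g (e.symm z)) (e x)
        ((mfderiv 𝓘(ℂ, Cm n) 𝓘(ℂ, Cm n) e x : Cm n →L[ℂ] Cm n) ξ) := by
  have h1 : ContMDiffAt 𝓘(ℂ, Cm n) 𝓘(ℂ, Cm n) ω e x :=
    contMDiffAt_of_mem_maximalAtlas (IsManifold.subset_maximalAtlas he.1) he.2
  have h2 : ContMDiffAt 𝓘(ℂ, Cm n) 𝓘(ℂ, ℂ) ω (fun z => g (e.symm z)) (e x) :=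
    (an_symm hg he).contDiffAt.contMDiffAt
  have h3 : g =ᶠ[𝓝 x] (fun z => g (e.symm z)) ∘ e := by
    filter_upwards [e.open_source.mem_nhds he.2] with y hy
    show g y = g (e.symm (e y))
    rw [e.left_inv hy]
  have h4 : mfderiv 𝓘(ℂ, Cm n) 𝓘(ℂ, ℂ) ((fun z => g (e.symm z)) ∘ e) x =
      (mfderiv 𝓘(ℂ, Cm n) 𝓘(ℂ, ℂ) (fun z => g (e.symm z)) (e x)).comp
        (mfderiv 𝓘(ℂ, Cm n) 𝓘(ℂ, Cm n) e x) :=
    mfderiv_comp x (h2.mdifferentiableAt (by simp)) (h1.mdifferentiableAt (by simp))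
  unfold FS.dif
  rw [h3.mfderiv_eq, h4, mfderiv_eq_fderiv]
  rfl

/-- **B1** -/
theorem b1 [Nonempty X] : B1 n X := by
  classical
  intro Δ hΔ kk m hm hkk
  obtain ⟨⟨hfin, hpr, hrat⟩, hsnc⟩ := hΔ
  set T : Finset (Set X) := hfin.toFinset with hTdef
  have hTm : ∀ D, D ∈ T ↔ Δ D ≠ 0 := fun D => hfin.mem_toFinset
  have hkT : ∀ D, kk D ≠ 0 → D ∈ T := by
    intro D hD
    rw [hTm]
    intro h0
    have h1 := hkk D
    rw [h0, mul_zero] at h1
    exact hD (by exact_mod_cast h1)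
  obtain ⟨L, t, hB, hloc⟩ := exists_divB hkT (fun D hD => (hpr D ((hTm D).1 hD)).1)
    fun D hD => (hpr D ((hTm D).1 hD)).2.1
  refine ⟨L, t, hB, ?_⟩
  intro c hc hcm i e x he hi
  obtain ⟨g, hg, hgt⟩ := hloc i x hi
  have hm' : (0 : ℝ) < m := by exact_mod_cast hm
  -- enumerate `T`
  set N : ℕ := T.card with hN
  set a : Fin N ≃ T := T.equivFin.symm with ha
  have hb : ∀ j : Fin N, c * (kk (a j).1 : ℝ) < 1 := by
    intro j
    obtain ⟨q, hq, hq0, hq1⟩ := hrat (a j).1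
    have h1 : Δ (a j).1 ≤ 1 := by
      rw [hq]
      exact_mod_cast hq1
    have h0 : 0 ≤ Δ (a j).1 := by
      rw [hq]
      exact_mod_cast hq0
    rw [hkk]
    have h2 : c * m < 1 := by
      rw [lt_div_iff₀ hm'] at hcm
      exact hcm
    calc c * (m * Δ (a j).1) = (c * m) * Δ (a j).1 := by ring
      _ ≤ (c * m) * 1 := mul_le_mul_of_nonneg_left h1 (by positivity)
      _ < 1 := by rw [mul_one]; exact h2
  have hli : LinearIndependent ℂ fun j : {j : Fin N // g (a j).1 (e.symm (e x)) = 0} =>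
      fderiv ℂ (fun z => g (a j.1).1 (e.symm z)) (e x) := by
    rw [linearIndependent_iff']
    intro s w hw j hj
    have hΔj : ∀ j : {j : Fin N // g (a j).1 (e.symm (e x)) = 0},
        Δ (a j.1).1 ≠ 0 ∧ x ∈ (a j.1).1 := by
      intro j
      refine ⟨(hTm _).1 (a j.1).2, ?_⟩
      have h0 : ∀ y, y = x → g (a j.1).1 y = 0 → g (a j.1).1 x = 0 := fun y hy h => hy ▸ h
      exact (IsLocalEq.mem_iff (hg _ (a j.1).2)).2 (h0 _ (e.left_inv he.2) j.2)
    have hsur := hsnc x g fun D hD _ => hg D ((hTm D).2 hD)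
    obtain ⟨ξ, hξ⟩ := hsur fun D => if D.1 = (a j.1).1 then 1 else 0
    have hξ' : ∀ j' : {j : Fin N // g (a j).1 (e.symm (e x)) = 0},
        fderiv ℂ (fun z => g (a j'.1).1 (e.symm z)) (e x)
          ((mfderiv 𝓘(ℂ, Cm n) 𝓘(ℂ, Cm n) e x : Cm n →L[ℂ] Cm n) ξ) =
          if j' = j then 1 else 0 := by
      intro j'
      have h1 := congrFun hξ ⟨(a j'.1).1, hΔj j'⟩
      rw [← dif_chart (IsLocalEq.holAt (hg _ (a j'.1).2)) he]
      refine h1.trans ?_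
      by_cases hjj : j' = j
      · rw [hjj, if_pos rfl, if_pos rfl]
      · rw [if_neg hjj, if_neg]
        intro h2
        exact hjj (Subtype.ext (a.injective (Subtype.ext h2)))
    set v : Cm n := (mfderiv 𝓘(ℂ, Cm n) 𝓘(ℂ, Cm n) e x : Cm n →L[ℂ] Cm n) ξ with hv
    have h2 : (∑ j' ∈ s, w j' • fderiv ℂ (fun z => g (a j'.1).1 (e.symm z)) (e x)) v = 0 := by
      rw [hw]
      rfl
    rw [ContinuousLinearMap.sum_apply] at h2
    have h3 : ∀ j' ∈ s, (w j' • fderiv ℂ (fun z => g (a j'.1).1 (e.symm z)) (e x)) v =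
        if j' = j then w j' else 0 := by
      intro j' _
      show w j' * fderiv ℂ (fun z => g (a j'.1).1 (e.symm z)) (e x) v = _
      rw [hξ' j']
      split_ifs <;> simp
    rw [Finset.sum_congr rfl h3, Finset.sum_ite_eq' s j, if_pos hj] at h2
    exact h2
  obtain ⟨W, hW, hI⟩ := Vale.Agent.P285.R2.H80.snc_int (s := fun (j : Fin N) z => g (a j).1 (e.symm z))
    (z₀ := e x) (fun j => an_symm (IsLocalEq.holAt (hg _ (a j).2)) he) hli (b := fun j => c * (kk (a j).1 : ℝ)) hb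
  refine ⟨W, hW, ?_⟩
  have h3 : (fun z => ‖t i (e.symm z)‖ ^ (-(2 * c))) =
      fun z => ∏ j : Fin N, ‖g (a j).1 (e.symm z)‖ ^ (-(2 * (c * (kk (a j).1 : ℝ)))) := by
    funext z
    rw [hgt]
    unfold FS.mon
    have h4 : ∏ D ∈ T, g D (e.symm z) ^ kk D = ∏ j : Fin N, g (a j).1 (e.symm z) ^ kk (a j).1 := by
      rw [← Finset.prod_coe_sort T (fun D => g D (e.symm z) ^ kk D)]
      exact (Equiv.prod_comp a fun D : T => g D.1 (e.symm z) ^ kk D.1).symm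
    rw [h4, norm_prod, ← Real.finset_prod_rpow _ _ fun j _ => norm_nonneg _]
    refine Finset.prod_congr rfl fun j _ => ?_
    rw [norm_pow, ← Real.rpow_natCast, ← Real.rpow_mul (norm_nonneg _)]
    congr 1
    ring
  rw [h3]
  exact hI

end

end Vale.Agent.P281.R2.H391
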