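import Vale.Agent.P281.R2.H391.Amp
import Vale.Agent.P281.R2.H391.Eq
import Vale.Agent.P285.R2.H391.Fin4

/-!
# P281, R2, row B4: pairs which dominate a hyperbolic orbifold have maximal Kodaira dimension
-/

open scoped Manifold ContDiff Topology
open Filter Set

set_option linter.all false

noncomputable section

namespace Vale.Agent.P281.R2.H391

open Vale.Agent.P272.K Vale.Agent.P285.H281.FD Vale.Agent.P285.LK
open Vale.Agent.P281.R2.H73 (DivB)

/-- clearing denominators -/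
theorem exists_mult {E : Type} [NormedAddCommGroup E] [NormedSpace ℂ E] {X : Type}
    [TopologicalSpace X] [ChartedSpace E X] {Δ : Set X → ℝ} (hΔ : FS.IsBdry E Δ) :
    ∃ m : ℕ, 0 < m ∧ ∃ kk : Set X → ℕ, ∀ D, (kk D : ℝ) = m * Δ D := by
  classical
  obtain ⟨hfin, -, hr⟩ := hΔ
  choose q hq h0 h1 using hr
  set S : Finset (Set X) := hfin.toFinset with hS
  set m : ℕ := ∏ D ∈ S, (q D).den with hm
  have hm0 : 0 < m := Finset.prod_pos fun D _ => (q D).den_pos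
  refine ⟨m, hm0, fun D => m / (q D).den * (q D).num.toNat, fun D => ?_⟩
  have hn0 : 0 ≤ (q D).num := Rat.num_nonneg.2 (h0 D)
  have h2 : (((q D).num.toNat : ℕ) : ℝ) = ((q D).num : ℝ) := by
    have : (((q D).num.toNat : ℕ) : ℤ) = (q D).num := Int.toNat_of_nonneg hn0
    exact_mod_cast this
  have hden : ((q D).den : ℝ) ≠ 0 := by exact_mod_cast (q D).den_ne_zero
  have h3 : (Δ D : ℝ) = ((q D).num : ℝ) / ((q D).den : ℝ) := by
    rw [hq D]
    exact_mod_cast (Rat.num_div_den (q D)).symm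
  by_cases hD : D ∈ S
  · have hdvd : (q D).den ∣ m := Finset.dvd_prod_of_mem _ hD
    rw [Nat.cast_mul, Nat.cast_div hdvd hden, h2, h3]
    field_simp
  · have h4 : Δ D = 0 := by
      by_contra h
      exact hD (hfin.mem_toFinset.2 h)
    have h5 : (q D).num = 0 := by
      have h6 : (q D : ℝ) = 0 := by rw [← hq D, h4]
      have h7 : q D = 0 := by exact_mod_cast h6
      rw [h7]
      rfl
    show ((m / (q D).den * (q D).num.toNat : ℕ) : ℝ) = _
    rw [h4, h5]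
    simp

section
variable {n : ℕ} {X : Type} [TopologicalSpace X] [ChartedSpace (Cm n) X]

/-- the Kodaira dimension is at most the dimension -/
theorem kodX_le (Δ : Set X → ℝ) : FS.kodX (Cm n) Δ ≤ (n : WithBot ℕ∞) := by
  unfold FS.kodX FS.kod
  refine iSup₂_le fun j hj => ?_
  obtain ⟨m, kk, s, z, -, -, -, -, -, hsur⟩ := hj
  have h1 : j ≤ n := by
    set A : Cm n →ₗ[ℂ] (Fin j → ℂ) := LinearMap.pi fun b : Fin j =>
      ((FS.dif (Cm n) (fun w => s (b + 1) w / s 0 w) z : Cm n →L[ℂ] ℂ) : Cm n →ₗ[ℂ] ℂ) with hA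
    have hA' : Function.Surjective A := by
      intro y
      obtain ⟨ξ, hξ⟩ := hsur y
      exact ⟨ξ, hξ⟩
    have h2 := LinearMap.finrank_le_finrank_of_surjective hA'
    simpa using h2
  exact_mod_cast h1

/-- row B1 -/
def B1 (n : ℕ) (X : Type) [TopologicalSpace X] [ChartedSpace (Cm n) X] : Prop :=
  ∀ (Δ : Set X → ℝ), FS.IsSNC (Cm n) Δ → ∀ (kk : Set X → ℕ) (m : ℕ), 0 < m →
    (∀ D, (kk D : ℝ) = m * Δ D) → ∃ (L : Bd X) (t : L.ι → X → ℂ), DivB n kk L t ∧ Lc n m L t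

/-- row B2 -/
def B2 (n : ℕ) (X : Type) [TopologicalSpace X] [ChartedSpace (Cm n) X] : Prop :=
  ∀ (Δ : Set X → ℝ) (kk : Set X → ℕ) (m : ℕ) (L : Bd X) (t : L.ι → X → ℂ) (r : ℕ),
    DivB n kk L t → 0 < m → (∀ D, (kk D : ℝ) = m * Δ D) →
    Vale.Agent.P285.H716.AB.KodGE n (((Bd.can n X).pow m).mul L) r → (r : WithBot ℕ∞) ≤ FS.kodX (Cm n) Δ

end

section
variable {n k : ℕ} {X : Type} [TopologicalSpace X] [T2Space X] [CompactSpace X] [ConnectedSpace X]
  [ChartedSpace (Cm n) X] [IsManifold 𝓘(ℂ, Cm n) ω X]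
  {s : Fin k → Chart n X → Cm n → ℂ} {ψ : Fin k → Chart n X → Cm n → ℝ}
  {c : Fin k → Chart n X → Cm n → Matrix (Fin n) (Fin n) ℂ} {μ : Fin k → ℕ}
  {w : Chart n X → Cm n → Matrix (Fin n) (Fin n) ℂ}

/-- pairs which dominate a hyperbolic orbifold have maximal Kodaira dimension -/
theorem kodX_orb (hB1 : B1 n X) (hB2 : B2 n X) (hn : 1 ≤ n) (hw : IsKahler w)
    (hS : IsSNCDivisor s ψ c) (hμ : ∀ i, μ i ≠ 1) (hX : OrbifoldBrody n X s μ) {Δ : Set X → ℝ}
    (hΔ : FS.IsSNC (Cm n) Δ) (hle : ∀ i, 1 - (μ i : ℝ)⁻¹ ≤ Δ (ZD (s i))) :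
    FS.kodX (Cm n) Δ = n := by
  refine le_antisymm (kodX_le Δ) ?_
  obtain ⟨m, hm, kk, hkk⟩ := exists_mult hΔ.1
  obtain ⟨L, t, hB, hlc⟩ := hB1 Δ hΔ kk m hm hkk
  have hm' : (0 : ℝ) < m := by exact_mod_cast hm
  have hpos : ∀ i, 0 < Δ (ZD (s i)) := by
    intro i
    refine lt_of_lt_of_le ?_ (hle i)
    rcases Nat.eq_zero_or_pos (μ i) with h | h
    · rw [h]
      simp
    · have h2 : (2 : ℝ) ≤ μ i := by
        have := hμ i
        have h3 : 2 ≤ μ i := by omega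
        exact_mod_cast h3
      have h3 : (μ i : ℝ)⁻¹ ≤ 2⁻¹ := inv_anti₀ two_pos h2
      linarith
  have hk : ∀ i, kk (ZD (s i)) ≠ 0 := by
    intro i h0
    have h1 := hkk (ZD (s i))
    rw [h0, Nat.cast_zero] at h1
    have := mul_pos hm' (hpos i)
    linarith
  have hne : ∀ i, (ZD (s i)).Nonempty := by
    intro i
    obtain ⟨-, -, h⟩ := hΔ.1.2.1 _ (hpos i).ne'
    obtain ⟨x, hx⟩ := h.nonempty
    exact ⟨x, hx.1⟩
  have hN : ∀ i, (m : ℝ) * (1 - (μ i : ℝ)⁻¹) ≤ (kk (ZD (s i)) : ℕ) := by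
    intro i
    rw [hkk]
    exact mul_le_mul_of_nonneg_left (hle i) hm'.le
  have h4 := Vale.Agent.P285.R2.H391.p285_orb hn hw hS hμ hX hB.lb hB.sec hB.ne hm hlc hN
    (divGe_of_divB hS hne hk hB)
  have hLB : IsLB n (((Bd.can n X).pow m).mul L) :=
    Vale.Agent.P285.R2.H391.isLB_mul
      (Vale.Agent.P285.R2.H391.isLB_pow Vale.Agent.P285.R2.H391.isLB_can m) hB.lb
  exact hB2 Δ kk m L t n hB hm hkk (kodGE_of_ample hLB h4.2.1)

end

end Vale.Agent.P281.R2.H391
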