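import Vale.Agent.P281.R2.H391.B1

/-!
# P281, R2: `(X, Δ)` is log canonical, for every line bundle and section with divisor `m Δ`
-/

open scoped Manifold ContDiff Topology
open Filter Set MeasureTheory

set_option linter.all false

noncomputable section

namespace Vale.Agent.P281.R2.H391

open Vale.Agent.P272.K Vale.Agent.P285.H281.FD Vale.Agent.P285.LK
open Vale.Agent.P281.R2.H73 (DivB)

section
variable {n : ℕ} {X : Type} [TopologicalSpace X] [ChartedSpace (Cm n) X]
  [IsManifold 𝓘(ℂ, Cm n) ω X]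

/-- rational simple normal crossings boundaries are log canonical -/
theorem lc_of_divB {Δ : Set X → ℝ} (hΔ : FS.IsSNC (Cm n) Δ) {kk : Set X → ℕ} {m : ℕ} (hm : 0 < m)
    (hkk : ∀ D, (kk D : ℝ) = m * Δ D) {L : Bd X} {t : L.ι → X → ℂ} (hB : DivB n kk L t) :
    Lc n m L t := by
  classical
  obtain ⟨⟨hfin, hpr, hrat⟩, hsnc⟩ := hΔ
  intro c hc hcm i e x he hi
  obtain ⟨T₀, g, u, hT₀, hg₀, hu, hu0, hgt⟩ := hB.loc i x hi
  have hm' : (0 : ℝ) < m := by exact_mod_cast hm
  have hkΔ : ∀ D, kk D ≠ 0 ↔ Δ D ≠ 0 := by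
    intro D
    constructor
    · intro hD h0
      have h1 := hkk D
      rw [h0, mul_zero] at h1
      exact hD (by exact_mod_cast h1)
    · intro hD h0
      have h1 := hkk D
      rw [h0, Nat.cast_zero] at h1
      exact hD ((mul_eq_zero.1 h1.symm).resolve_left hm'.ne')
  set T : Finset (Set X) := T₀.filter fun D => kk D ≠ 0 with hTdef
  have hTm : ∀ D, D ∈ T ↔ Δ D ≠ 0 := by
    intro D
    rw [hTdef, Finset.mem_filter, ← hkΔ]
    exact ⟨fun h => h.2, fun h => ⟨hT₀ D h, h⟩⟩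
  have hg : ∀ D ∈ T, FS.Eqn (Cm n) D (g D) x := fun D hD => hg₀ D (Finset.mem_filter.1 hD).1
  -- enumerate `T`
  set N : ℕ := T.card with hN
  set a : Fin N ≃ T := T.equivFin.symm with ha
  have hb : ∀ j : Fin N, c * (kk (a j).1 : ℝ) < 1 := by
    intro j
    obtain ⟨q, hq, hq0, hq1⟩ := hrat (a j).1
    have h1 : Δ (a j).1 ≤ 1 := by
      rw [hq]
      exact_mod_cast hq1
    have h0 : 0 ≤ Δ (a j).1 := by
      rw [hq]
      exact_mod_cast hq0
    rw [hkk]
    have h2 : c * m < 1 := by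
      rw [lt_div_iff₀ hm'] at hcm
      exact hcm
    calc c * (m * Δ (a j).1) = (c * m) * Δ (a j).1 := by ring
      _ ≤ (c * m) * 1 := mul_le_mul_of_nonneg_left h1 (by positivity)
      _ < 1 := by rw [mul_one]; exact h2
  have hli : LinearIndependent ℂ fun j : {j : Fin N // g (a j).1 (e.symm (e x)) = 0} =>
      fderiv ℂ (fun z => g (a j.1).1 (e.symm z)) (e x) := by
    rw [linearIndependent_iff']
    intro s w hw j hj
    have hΔj : ∀ j : {j : Fin N // g (a j).1 (e.symm (e x)) = 0},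
        Δ (a j.1).1 ≠ 0 ∧ x ∈ (a j.1).1 := by
      intro j
      refine ⟨(hTm _).1 (a j.1).2, ?_⟩
      have h0 : ∀ y, y = x → g (a j.1).1 y = 0 → g (a j.1).1 x = 0 := fun y hy h => hy ▸ h
      exact (IsLocalEq.mem_iff (hg _ (a j.1).2)).2 (h0 _ (e.left_inv he.2) j.2)
    have hsur := hsnc x g fun D hD _ => hg D ((hTm D).2 hD)
    obtain ⟨ξ, hξ⟩ := hsur fun D => if D.1 = (a j.1).1 then 1 else 0
    have hξ' : ∀ j' : {j : Fin N // g (a j).1 (e.symm (e x)) = 0},
        fderiv ℂ (fun z => g (a j'.1).1 (e.symm z)) (e x)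
          ((mfderiv 𝓘(ℂ, Cm n) 𝓘(ℂ, Cm n) e x : Cm n →L[ℂ] Cm n) ξ) =
          if j' = j then 1 else 0 := by
      intro j'
      have h1 := congrFun hξ ⟨(a j'.1).1, hΔj j'⟩
      rw [← dif_chart (IsLocalEq.holAt (hg _ (a j'.1).2)) he]
      refine h1.trans ?_
      by_cases hjj : j' = j
      · rw [hjj, if_pos rfl, if_pos rfl]
      · rw [if_neg hjj, if_neg]
        intro h2
        exact hjj (Subtype.ext (a.injective (Subtype.ext h2)))
    set v : Cm n := (mfderiv 𝓘(ℂ, Cm n) 𝓘(ℂ, Cm n) e x : Cm n →L[ℂ] Cm n) ξ with hv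
    have h2 : (∑ j' ∈ s, w j' • fderiv ℂ (fun z => g (a j'.1).1 (e.symm z)) (e x)) v = 0 := by
      rw [hw]
      rfl
    rw [ContinuousLinearMap.sum_apply] at h2
    have h3 : ∀ j' ∈ s, (w j' • fderiv ℂ (fun z => g (a j'.1).1 (e.symm z)) (e x)) v =
        if j' = j then w j' else 0 := by
      intro j' _
      show w j' * fderiv ℂ (fun z => g (a j'.1).1 (e.symm z)) (e x) v = _
      rw [hξ' j']
      split_ifs <;> simp
    rw [Finset.sum_congr rfl h3, Finset.sum_ite_eq' s j, if_pos hj] at h2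
    exact h2
  obtain ⟨W, hW, hI⟩ := Vale.Agent.P285.R2.H80.snc_int
    (s := fun (j : Fin N) z => g (a j).1 (e.symm z)) (z₀ := e x)
    (fun j => an_symm (IsLocalEq.holAt (hg _ (a j).2)) he) hli
    (b := fun j => c * (kk (a j).1 : ℝ)) hb
  have hue : u (e.symm (e x)) ≠ 0 := by
    rw [e.left_inv he.2]
    exact hu0
  have hua := an_symm hu he
  have hc' : Tendsto e.symm (𝓝 (e x)) (𝓝 x) := by
    have := e.continuousAt_symm (e.map_source he.2)
    rw [ContinuousAt, e.left_inv he.2] at this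
    exact this
  -- a small ball
  have hev : ∀ᶠ z in 𝓝 (e x), z ∈ W ∧ t i (e.symm z) = u (e.symm z) * FS.mon T₀ g kk (e.symm z) ∧
      u (e.symm z) ≠ 0 ∧ ContinuousAt (fun z => u (e.symm z)) z := by
    refine (Filter.eventually_mem_set.2 hW).and ((hc'.eventually hgt).and
      ((hua.continuousAt.eventually_ne hue).and ?_))
    exact hua.eventually_analyticAt.mono fun z hz => hz.continuousAt
  obtain ⟨ρ, hρ, hball⟩ := Metric.nhds_basis_closedBall.mem_iff.1 hev
  refine ⟨Metric.closedBall (e x) ρ, Metric.closedBall_mem_nhds _ hρ, ?_⟩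
  have h1 : IntegrableOn (fun z => (∏ j : Fin N, ‖g (a j).1 (e.symm z)‖ ^
      (-(2 * (c * (kk (a j).1 : ℝ))))) * ‖u (e.symm z)‖ ^ (-(2 * c)))
      (Metric.closedBall (e x) ρ) := by
    refine (hI.mono_set fun z hz => (hball hz).1).mul_continuousOn ?_ (isCompact_closedBall _ _)
    intro z hz
    obtain ⟨-, -, h2, h3⟩ := hball hz
    exact (h3.norm.rpow_const (Or.inl (norm_ne_zero_iff.2 h2))).continuousWithinAt
  refine h1.congr_fun (fun z hz => ?_) Metric.isClosed_closedBall.measurableSet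
  obtain ⟨-, h2, h3, -⟩ := hball hz
  show _ = ‖t i (e.symm z)‖ ^ (-(2 * c))
  rw [h2]
  unfold FS.mon
  have h4 : ∏ D ∈ T₀, g D (e.symm z) ^ kk D = ∏ j : Fin N, g (a j).1 (e.symm z) ^ kk (a j).1 := by
    have h5 : ∏ D ∈ T₀, g D (e.symm z) ^ kk D = ∏ D ∈ T, g D (e.symm z) ^ kk D := by
      rw [hTdef, Finset.prod_filter]
      refine Finset.prod_congr rfl fun D _ => ?_
      by_cases hkD : kk D = 0 <;> simp [hkD]
    rw [h5, ← Finset.prod_coe_sort T (fun D => g D (e.symm z) ^ kk D)]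
    exact (Equiv.prod_comp a fun D : T => g D.1 (e.symm z) ^ kk D.1).symm
  have h6 : ∏ j : Fin N, ‖g (a j).1 (e.symm z)‖ ^ (-(2 * (c * (kk (a j).1 : ℝ)))) =
      (∏ j : Fin N, ‖g (a j).1 (e.symm z) ^ kk (a j).1‖) ^ (-(2 * c)) := by
    rw [← Real.finset_prod_rpow _ _ fun j _ => norm_nonneg _]
    refine Finset.prod_congr rfl fun j _ => ?_
    rw [norm_pow, ← Real.rpow_natCast, ← Real.rpow_mul (norm_nonneg _)]
    congr 1
    ring
  rw [h4, norm_mul, norm_prod, Real.mul_rpow (norm_nonneg _)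
    (Finset.prod_nonneg fun j _ => norm_nonneg _), ← h6]
  exact mul_comm _ _

end

end Vale.Agent.P281.R2.H391
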